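import Mathlib

/-!
# Finiteness on a window propagates to all degrees

`F m t` stands for the finiteness of `π_t (X ⊗ V(m))`, `q m` for the degree of the self map with
cofibre `V(m)`.
-/

namespace Vale.Agent.P261.H174

/-- The left end of the window in the stage `m`. -/
def aEnd (q : ℕ → ℤ) (a : ℤ) (m : ℕ) : ℤ := a + ∑ j ∈ Finset.range m, (q (j + 1) + 1)

theorem aEnd_zero (q : ℕ → ℤ) (a : ℤ) : aEnd q a 0 = a := by simp [aEnd]

theorem aEnd_succ (q : ℕ → ℤ) (a : ℤ) (m : ℕ) :
    aEnd q a (m + 1) = aEnd q a m + (q (m + 1) + 1) := by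
  simp [aEnd, Finset.sum_range_succ]; ring

theorem aEnd_mono (q : ℕ → ℤ) (hq : ∀ m, 0 ≤ q m) (a : ℤ) {m n : ℕ} (h : m ≤ n) :
    aEnd q a m ≤ aEnd q a n := by
  induction n, h using Nat.le_induction with
  | base => exact le_rfl
  | succ n _ ih => rw [aEnd_succ]; have := hq (n + 1); omega

/-- A property of integers which is periodic and holds on a full period holds everywhere. -/
theorem all_of_period {P : ℤ → Prop} {q c : ℤ} (hq : 0 < q) (hP : ∀ t, P t ↔ P (t - q))
    (hc : ∀ t, c ≤ t → t < c + q → P t) (t : ℤ) : P t := by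
  have h1 : ∀ (k : ℕ) (s : ℤ), P s ↔ P (s - k * q) := by
    intro k
    induction k with
    | zero => intro s; simp
    | succ k ih =>
      intro s
      rw [ih s, hP]
      have : s - (k : ℤ) * q - q = s - ((k + 1 : ℕ) : ℤ) * q := by push_cast; ring
      rw [this]
  have h2 : ∀ (k : ℤ) (s : ℤ), P s ↔ P (s - k * q) := by
    intro k s
    obtain ⟨m, rfl | rfl⟩ := Int.eq_nat_or_neg k
    · exact h1 m s
    · have := h1 m (s - -(m : ℤ) * q)
      rw [this]
      have e : s - -(m : ℤ) * q - (m : ℤ) * q = s := by ring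
      rw [e]
  rw [h2 ((t - c) / q) t]
  have e1 : t - (t - c) / q * q = c + (t - c) % q := by
    have := Int.emod_add_mul_ediv (t - c) q
    have h3 : (t - c) / q * q = q * ((t - c) / q) := mul_comm _ _
    omega
  rw [e1]
  have h4 := Int.emod_nonneg (t - c) hq.ne'
  have h5 := Int.emod_lt_of_pos (t - c) hq
  exact hc _ (by omega) (by omega)

/-- **The window.**  `up`: the exact sequences
`π_t V(m) → π_t V(m+1) → π_(t-q-1) V(m)`; `dn`: the exact sequences
`π_(t-q) V(m) → π_t V(m) → π_t V(m+1)` and `π_(t+1) V(m+1) → π_(t-q) V(m) → π_t V(m)`. -/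
theorem window {n : ℕ} (q : ℕ → ℤ) (hq : ∀ m, 0 ≤ q m) (hq' : ∀ m, m < n → 0 < q (m + 1))
    (F : ℕ → ℤ → Prop)
    (up : ∀ m, m < n → ∀ t, F m t → F m (t - q (m + 1) - 1) → F (m + 1) t)
    (dn : ∀ m, m < n → ∀ t, F (m + 1) t → F m (t - q (m + 1)) → F m t)
    (dn' : ∀ m, m < n → ∀ t, F (m + 1) (t + 1) → F m t → F m (t - q (m + 1)))
    (top : ∀ t, F n t) (a b : ℤ) (hab : aEnd q a n ≤ b + 2)
    (h0 : ∀ t, a ≤ t → t ≤ b → F 0 t) : ∀ m, m ≤ n → ∀ t, F m t := by
  have hw : ∀ m, m ≤ n → ∀ t, aEnd q a m ≤ t → t ≤ b → F m t := by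
    intro m
    induction m with
    | zero => intro _ t h1 h2; rw [aEnd_zero] at h1; exact h0 t h1 h2
    | succ m ih =>
      intro hm t h1 h2
      rw [aEnd_succ] at h1
      have hqq := hq (m + 1)
      exact up m (by omega) t (ih (by omega) t (by omega) h2)
        (ih (by omega) _ (by omega) (by omega))
  have hd : ∀ k, k ≤ n → ∀ t, F (n - k) t := by
    intro k
    induction k with
    | zero => intro _ t; exact top t
    | succ k ih =>
      intro hk
      have hall := ih (by omega)
      obtain ⟨m, hm⟩ : ∃ m, n - k = m + 1 := ⟨n - k - 1, by omega⟩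
      have hm' : n - (k + 1) = m := by omega
      rw [hm] at hall
      rw [hm']
      have hmn : m < n := by omega
      have hpos := hq' m hmn
      have hle : aEnd q a (m + 1) ≤ aEnd q a n := aEnd_mono q hq a (by omega)
      rw [aEnd_succ] at hle
      refine all_of_period (c := aEnd q a m) hpos
        (fun t => ⟨fun h => dn' m hmn t (hall _) h, fun h => dn m hmn t (hall _) h⟩) ?_
      intro t h1 h2
      exact hw m (by omega) t h1 (by omega)
  intro m hm
  have := hd (n - m) (by omega)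
  rwa [Nat.sub_sub_self hm] at this

/-- Finiteness of the middle term of an exact sequence. -/
theorem finite_mid {A B C : Type*} [AddCommGroup A] [AddCommGroup B] [AddCommGroup C]
    (f : A →+ B) (g : B →+ C) (h : ∀ b, g b = 0 → ∃ a, f a = b) [Finite A] [Finite C] :
    Finite B := by
  have h1 : Finite g.ker := by
    refine Finite.of_surjective (fun a : {a : A // g (f a) = 0} =>
      (⟨f a.1, a.2⟩ : g.ker)) ?_
    rintro ⟨b, hb⟩
    obtain ⟨a, rfl⟩ := h b hb
    exact ⟨⟨a, hb⟩, rfl⟩
  have h2 : Finite (B ⧸ g.ker) :=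
    Finite.of_injective _ (QuotientAddGroup.kerLift_injective g)
  exact Finite.of_equiv _ (AddSubgroup.addGroupEquivQuotientProdAddSubgroup (s := g.ker)).symm

end Vale.Agent.P261.H174
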